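import Vale.Agent.P153D.Props

/-!
Tightness and the continuity theorem in the space of distributions.
-/

set_option autoImplicit false

namespace Vale.Agent.P153DT

open MeasureTheory Filter Topology Set TopologicalSpace
open Vale.Agent.P153D

theorem has_ev {Ω : Opens ℂ} {ι : Type} {a : ι → ℝ} {ψ : ι → Te Ω} {φ : Te Ω}
    (h : HasSum (fun k => a k • ψ k) φ) (T : Di Ω) : HasSum (fun k => a k * T (ψ k)) (T φ) := by
  have := h.map T (map_continuous T)
  simpa only [Function.comp_def, map_smul, smul_eq_mul] using this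

theorem exh (Ω : Opens ℂ) : ∃ K : ℕ → Set ℂ, (∀ l, IsCompact (K l) ∧ K l ⊆ Ω) ∧
    ∀ L : Set ℂ, IsCompact L → L ⊆ Ω → ∃ l, L ⊆ K l := by
  have := Ω.isOpen.locallyCompactSpace
  let X := CompactExhaustion.choice Ω
  refine ⟨fun l => Subtype.val '' X l, fun l => ⟨(X.isCompact l).image continuous_subtype_val,
    Subtype.coe_image_subset _ _⟩, fun L hL h => ?_⟩
  obtain ⟨l, hl⟩ := X.exists_superset_of_isCompact (s := Subtype.val ⁻¹' L)
    (Topology.IsInducing.subtypeVal.isCompact_preimage' hL (by rwa [Subtype.range_coe]))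
  exact ⟨l, fun x hx => ⟨⟨x, h hx⟩, hl hx, rfl⟩⟩

theorem tig_of (h1 : SEQ) (h2 : NUC) (h3 : ALA) : TIG := by
  intro Ω J μ hμ
  refine isTightMeasureSet_iff_exists_isCompact_measure_compl_le.2 fun ε hε => ?_
  obtain ⟨K, hK, cov⟩ := exh Ω
  obtain ⟨e, e0, he⟩ := ENNReal.exists_pos_sum_of_countable' hε.ne' ℕ
  choose ι cι w ψ w1 ws syn dec using fun l => h2 Ω (K l) (hK l).1 (hK l).2
  have key : ∀ l, ∃ (m : ℕ) (R : ℝ), 0 ≤ R ∧
      ∀ j, μ j {T | ∃ k, R * w l k ^ m < |T (ψ l k)|} ≤ e l := fun l => by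
    have := cι l
    refine h1 (ι l) (w l) (w1 l) (Di Ω) J μ (fun T k => T (ψ l k)) (fun a ha T => ?_)
      (fun a ha => ?_) (fun a ha => ?_) (e l) (e0 l)
    all_goals obtain ⟨φ, hφ⟩ := syn l a ha
    · exact (has_ev hφ T).summable
    · simp only [fun T => (has_ev hφ T).tsum_eq]
      exact meas_ev φ
    · simp only [fun T => (has_ev hφ T).tsum_eq]
      exact hμ φ
  choose m R R0 hR using key
  obtain ⟨Q, hQ, hS⟩ := h3 Ω {T | ∀ l k, |T (ψ l k)| ≤ R l * w l k ^ m l} fun L hL h => by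
    obtain ⟨l, hl⟩ := cov L hL h
    obtain ⟨C, hC⟩ := dec l (m l + 3)
    refine ⟨m l + 3, R l * C * ∑' k, (w l k ^ 3)⁻¹, fun T hT φ hφ B hB => ?_⟩
    obtain ⟨c, hc, hb⟩ := hC φ (hφ.trans hl)
    have s := ((ws l).hasSum.mul_left (R l * C)).mul_right B
    refine (has_ev hc T).norm_le_of_bounded s fun k => ?_
    have p : 0 < w l k := one_pos.trans_le (w1 l k)
    have b := mul_le_mul_of_nonneg_left (hb B hB k) (R0 l)
    rw [Real.norm_eq_abs, abs_mul, mul_right_comm, ← div_eq_mul_inv, le_div_iff₀ (by positivity)]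
    calc _ ≤ |c k| * (R l * w l k ^ m l) * w l k ^ 3 := by gcongr; exact hT l k
      _ = R l * (|c k| * w l k ^ (m l + 3)) := by ring
      _ ≤ _ := by rwa [mul_assoc]
  refine ⟨Q, hQ, ?_⟩
  rintro _ ⟨j, rfl⟩
  refine ((measure_mono (t := ⋃ l, {T | ∃ k, R l * w l k ^ m l < |T (ψ l k)|})
    fun T hT => ?_).trans (measure_iUnion_le _)).trans
      ((ENNReal.tsum_le_tsum fun l => hR l j).trans he.le)
  by_contra h
  simp only [mem_iUnion, mem_ofPred_eq, not_exists, not_lt] at h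
  exact hT (hS h)

theorem fer_of (h1 : TIG) (h2 : UNI) : FER := by
  intro Ω μ ν h
  have t := h1 Ω ℕ (fun n => μ n) fun φ ε hε => by
    have c := isTightMeasureSet_of_isCompact_closure ((h φ).isCompact_insert_range.closure)
    obtain ⟨K, hK, hc⟩ := isTightMeasureSet_iff_exists_isCompact_measure_compl_le.1 c ε hε
    obtain ⟨R, hR⟩ := hK.isBounded.subset_closedBall 0
    refine ⟨R, fun j => le_trans ?_ (hc _ ⟨_, .inr ⟨j, rfl⟩, rfl⟩)⟩
    refine le_trans (measure_mono fun T hT => ?_)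
      (Measure.le_map_apply (meas_ev φ).aemeasurable Kᶜ)
    exact fun hx => absurd (mem_closedBall_zero_iff.1 (hR hx)) (not_le.2 hT)
  have c : IsCompact (closure (range μ)) := isCompact_closure_of_isTightMeasureSet
    (t.subset (by rintro _ ⟨_, ⟨n, rfl⟩, rfl⟩; exact ⟨n, rfl⟩))
  have key : ∀ U : Ultrafilter ℕ, ↑U ≤ (atTop : Filter ℕ) → ∃ G : ProbabilityMeasure (Di Ω),
      (∀ φ : Te Ω, G.map (meas_ev φ).aemeasurable = ν φ) ∧ Tendsto μ U (𝓝 G) := fun U hU => by
    obtain ⟨G, -, hG⟩ := c.ultrafilter_le_nhds (U.map μ)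
      (le_principal_iff.2 (mem_map.2 (univ_mem' fun n => subset_closure ⟨n, rfl⟩)))
    exact ⟨G, fun φ => tendsto_nhds_unique
      (ProbabilityMeasure.tendsto_map_of_tendsto_of_continuous μ G hG (cont_ev φ))
        ((h φ).mono_left hU), hG⟩
  obtain ⟨G, hG, -⟩ := key (Ultrafilter.of atTop) (Ultrafilter.of_le _)
  refine ⟨G, hG, (tendsto_iff_ultrafilter _ _ _).2 fun U hU => ?_⟩
  obtain ⟨G', hG', t⟩ := key U hU
  rwa [show G = G' from Subtype.ext (h2 Ω _ _ G.2 G'.2 fun φ =>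
    congrArg Subtype.val ((hG φ).trans (hG' φ).symm))]

end Vale.Agent.P153DT
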